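import Vale.Agent.P167.N.QC.Dq
import Vale.Agent.P167.H469.Ra2

/-!
# P167, `0 < q < 1`: no return to the start `a`
-/

set_option autoImplicit false

namespace Vale.Agent.P167.N.H469

open Vale.Agent.P167 Vale.Agent.P167.H469 Vale.Agent.P167.N.QC
open Set Filter Topology MeasureTheory
open scoped ENNReal
open Vale.Agent.P167.E6 Vale.Agent.P167.E2 Vale.Agent.P167.SLE Vale.Agent.P167.H161
open Vale.Agent.P167.H166 Vale.Agent.P167.QC
open Vale.Agent.P167.FK (Good RSW Pr Ex)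
open Vale.Agent.P167.H718 (Dq wE etaQ mem_Dq' mem_wE mem_wiredOpen good_etaQ)
open Vale.Agent.P167.QE (lawW wq lwt)
open Vale.Agent.P167.H174 (bc continuous_bc toC_inj)
open Vale.Agent.P153.R2.C1 (reparam)
open Vale.Agent.P153.R2.Final (dom circ toC)

open Classical in
/-- **The probability of a return to `a`**, `0 < q < 1`. -/
theorem retA_tail {q : ℝ} (h1 : Kit (√q)) : ∃ α C : ℝ, 0 < α ∧ 0 < C ∧
    ∀ (n : ℕ) (p : ZMod n → ℤ × ℤ) (S : Finset (ℤ × ℤ)) (k : ℕ),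
    IsPolygon p → Encloses p S → 0 < k → k < n →
    ∀ (x : ℤ × ℤ) (r R' R : ℤ), 1 ≤ r → r + 2 < R' → R' + 5 ≤ R →
      (∀ i, k ≤ i → i < n → nm (H192.ro (p i) - x) ≤ R' + 3 → ∀ l, i ≤ l → l < n →
        nm (H192.ro (p l) - x) < R) →
      (∀ i < k, nm (H192.ro (p i) - x) ≤ R' + 3 → ∀ l, l ≤ i →
        nm (H192.ro (p l) - x) < R) →
      nm (H192.ro (p 0) - x) + 1 ≤ r → R + 1 < nm (H192.ro (p (k : ZMod n)) - x) →
      Final.mean q p k S (fun A => if ∃ t0 t1 : ℕ, t0 ≤ t1 ∧ t1 < len p k A ∧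
        R < nm (hdv (H192.me (run p k A t0)) - x) ∧
        nm (hdv (H192.me (run p k A t1)) - x) ≤ r then 1 else 0) ≤
        C * ((r : ℝ) / R') ^ α := by
  have hQ0 : (0 : ℝ) < √q := h1.pos
  have hq0 : 0 < q := h1.q_pos
  obtain ⟨α, C, hα, hC, h⟩ := fresh_dq h1
  refine ⟨α, 4 * C, hα, by positivity, fun n p S k hp hS h0 hk x r R' R hr hrR hR hw hf ha hb => ?_⟩
  have hr' : (1 : ℝ) ≤ r := by exact_mod_cast hr
  have hR0 : (0 : ℝ) < R' := by
    have : (1 : ℤ) ≤ R' := by omega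
    have : (1 : ℝ) ≤ R' := by exact_mod_cast this
    linarith
  have hx0 : 0 ≤ C * ((r : ℝ) / R') ^ α := by
    have : 0 ≤ (r : ℝ) / R' := div_nonneg (by linarith) hR0.le
    positivity
  rcases le_total (C * ((r : ℝ) / R') ^ α) 1 with hsm | hsm
  · obtain ⟨t1, t2⟩ := h n p S k hp hS h0 hk x r R' hr hrR hsm 1
    rw [pow_one] at t1 t2
    have hle := mean_le_Pr (k := k) hq0 hp hS (fun A => ∃ t0 t1 : ℕ, t0 ≤ t1 ∧ t1 < len p k A ∧
        R < nm (hdv (H192.me (run p k A t0)) - x) ∧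
        nm (hdv (H192.me (run p k A t1)) - x) ≤ r)
      ({ω | 1 ≤ kf x r R' (Dq S p k ∩ bxx x R') ω true 0} ∪
        {ω | 1 ≤ kf x r R' (Dq S p k ∩ bxx x R') ω false 1}) fun A hA hE => ?_
    · refine hle.trans ((FKA.Pr_union_le hQ0 _ _).trans ?_)
      linarith
    · obtain ⟨s0, s1, g1, g2, g3, g4⟩ := hE
      have h5 := retA_lat hp hS h0 hk (by omega) hR hw hf ha hb hA g1 g2 g3 g4
      by_cases h7 : 1 ≤ kf x r R' (Dq S p k ∩ bxx x R') (om p k A) true 0
      · exact Or.inl h7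
      · refine Or.inr ?_
        show 1 ≤ kf x r R' (Dq S p k ∩ bxx x R') (om p k A) false 1
        omega
  · refine (mean_le_Pr (k := k) hq0 hp hS _ Set.univ fun _ _ _ => Set.mem_univ _).trans ?_
    refine (FKA.Pr_le_one hQ0 _).trans ?_
    linarith

open Classical in
/-- **No return to `a`**: paths close to the interfaces. -/
theorem retA_mean {q : ℝ} (hq1 : Kit (√q)) {Φ : (ℝ × ℝ) ≃ₜ (ℝ × ℝ)} {δ : ℕ → ℝ}
    {N k : ℕ → ℕ} {p : ∀ n, ZMod (N n) → ℤ × ℤ} {S : ℕ → Finset (ℤ × ℤ)}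
    (hA : Approx Φ δ N k p S) {r : ℝ} (hr : 0 < r) (hra : r ≤ dist (bc Φ 0) (bq Φ)) {e : ℝ}
    (he : 0 < e) : ∃ r' : ℝ, 0 < r' ∧ ∀ᶠ n in atTop,
      Final.mean q (p n) (k n) (S n) (fun A => if ∃ t0 t1 : ℕ, t0 ≤ t1 ∧ t1 < len (p n) (k n) A ∧
        r < dist (mid (δ n) (run (p n) (k n) A t0)) (bc Φ 0) ∧
        dist (mid (δ n) (run (p n) (k n) A t1)) (bc Φ 0) < r' then 1 else 0) ≤ e := by
  have hq0 : 0 < q := hq1.q_pos
  obtain ⟨α, C, hα, hC, hbound⟩ := retA_tail hq1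
  obtain ⟨r2, hr2, hr2r, hnear1, hnear2⟩ := near_a Φ (r := r / 16) (by linarith)
  -- the choice of `r'`
  obtain ⟨r', hr', hr'1, hr'2⟩ : ∃ r' : ℝ, 0 < r' ∧ 64 * r' < r2 ∧
      C * (64 * r' / r2) ^ α ≤ e := by
    have h1 : Tendsto (fun x : ℝ => C * (64 * x / r2) ^ α) (𝓝[>] 0) (𝓝 0) := by
      have h2 : Tendsto (fun x : ℝ => 64 * x / r2) (𝓝[>] 0) (𝓝 0) := by
        have h3 : Tendsto (fun x : ℝ => 64 * x / r2) (𝓝 0) (𝓝 (64 * 0 / r2)) :=
          (continuous_const.mul continuous_id).div_const _ |>.tendsto 0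
        rw [mul_zero, zero_div] at h3
        exact h3.mono_left nhdsWithin_le_nhds
      have h4 := (h2.rpow_const (p := α) (Or.inr hα.le)).const_mul C
      rwa [Real.zero_rpow hα.ne', mul_zero] at h4
    have h5 : ∀ᶠ x : ℝ in 𝓝[>] 0, C * (64 * x / r2) ^ α ≤ e :=
      (h1.eventually (gt_mem_nhds he)).mono fun x hx => le_of_lt hx
    have h6 : ∀ᶠ x : ℝ in 𝓝[>] 0, x < r2 / 64 := by
      filter_upwards [Ioo_mem_nhdsGT (show (0 : ℝ) < r2 / 64 by positivity)] with x hx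
      exact hx.2
    obtain ⟨x, h7, h8, h9⟩ := (h5.and (h6.and self_mem_nhdsWithin)).exists
    exact ⟨x, h9, by linarith, h7⟩
  refine ⟨r', hr', ?_⟩
  obtain ⟨hpoly, hδ0, happ⟩ := hA
  have hδsmall : ∀ᶠ n in atTop, δ n < r' / 16 :=
    hδ0.eventually (gt_mem_nhds (show (0 : ℝ) < r' / 16 by positivity))
  filter_upwards [hδsmall, happ (r' / 8) (by positivity)] with n hδn happn
  obtain ⟨hδ, h0k, hk, hp, hS⟩ := hpoly n
  obtain ⟨s, hs, hs0, hsk, hsN, hsd⟩ := happn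
  set d := δ n with hd
  set b := bc Φ 0 with hb
  set x := rnd d b with hx
  -- integer radii
  obtain ⟨ρ, hρ⟩ : ∃ ρ : ℤ, ρ = ⌊2 * r' / d⌋ + 4 := ⟨_, rfl⟩
  obtain ⟨R', hR'⟩ : ∃ R' : ℤ, R' = ⌊r2 / (8 * d)⌋ := ⟨_, rfl⟩
  obtain ⟨R, hR⟩ : ∃ R : ℤ, R = ⌊r / (4 * d)⌋ + 3 := ⟨_, rfl⟩
  have hρ1 : d * ρ ≤ 2 * r' + 4 * d := by
    have h1 := Int.floor_le (2 * r' / d)
    have h2 : d * (⌊2 * r' / d⌋ : ℝ) ≤ 2 * r' := by
      have := mul_le_mul_of_nonneg_left h1 hδ.le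
      rwa [mul_div_cancel₀ _ hδ.ne'] at this
    rw [hρ]; push_cast
    linarith
  have hρ2 : 2 * r' + 3 * d ≤ d * ρ := by
    have h1 := (Int.lt_floor_add_one (2 * r' / d)).le
    have h2 : 2 * r' ≤ d * ((⌊2 * r' / d⌋ : ℝ) + 1) := by
      have := mul_le_mul_of_nonneg_left h1 hδ.le
      rwa [mul_div_cancel₀ _ hδ.ne'] at this
    rw [hρ]; push_cast
    linarith
  have hR'1 : d * R' ≤ r2 / 8 := by
    have h1 := Int.floor_le (r2 / (8 * d))
    rw [← hR'] at h1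
    have := mul_le_mul_of_nonneg_left h1 hδ.le
    have e : d * (r2 / (8 * d)) = r2 / 8 := by field_simp
    linarith
  have hR'2 : r2 / 8 - d ≤ d * R' := by
    have h1 := (Int.lt_floor_add_one (r2 / (8 * d))).le
    rw [← hR'] at h1
    have := mul_le_mul_of_nonneg_left h1 hδ.le
    have e : d * (r2 / (8 * d)) = r2 / 8 := by field_simp
    linarith
  have hR1 : d * R ≤ r / 4 + 3 * d := by
    have h1 := Int.floor_le (r / (4 * d))
    have := mul_le_mul_of_nonneg_left h1 hδ.le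
    have e : d * (r / (4 * d)) = r / 4 := by field_simp
    rw [hR]; push_cast
    linarith
  have hR2 : r / 4 + 2 * d ≤ d * R := by
    have h1 := (Int.lt_floor_add_one (r / (4 * d))).le
    have := mul_le_mul_of_nonneg_left h1 hδ.le
    have e : d * (r / (4 * d)) = r / 4 := by field_simp
    rw [hR]; push_cast
    linarith
  have key : ∀ a c : ℤ, d * (a : ℝ) < d * (c : ℝ) → a < c := by
    intro a c h
    have := lt_of_mul_lt_mul_left h hδ.le
    exact_mod_cast this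
  have key' : ∀ a c : ℤ, d * (a : ℝ) ≤ d * (c : ℝ) → a ≤ c := by
    intro a c h
    have := le_of_mul_le_mul_left h hδ
    exact_mod_cast this
  have hρR : ρ + 2 < R' := by
    apply key
    push_cast
    nlinarith
  have hRR' : R' + 5 ≤ R := by
    apply key'
    push_cast
    nlinarith
  have hρ0 : 1 ≤ ρ := by
    have h1 : 0 ≤ ⌊2 * r' / d⌋ := Int.floor_nonneg.2 (by positivity)
    omega
  -- coordinates
  have hmul : ∀ {a m : ℝ}, m ≤ 2 * a / d + 1 → d * m ≤ 2 * a + d := by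
    intro a m h
    have h1 := mul_le_mul_of_nonneg_left h hδ.le
    have h2 : d * (2 * a / d + 1) = 2 * a + d := by field_simp
    linarith
  -- vertices near `a`
  have hvert : ∀ j : ℕ, j < N n → dist ((d : ℂ) * pt (p n (j : ZMod (N n)))) (bc Φ (s j)) <
      r' / 8 := by
    intro j hj
    exact hsd j hj (s j) ⟨le_rfl, hs (Nat.le_succ j)⟩
  have hs01 : ∀ j : ℕ, j ≤ N n → 0 ≤ s j ∧ s j ≤ 2 * Real.pi := by
    intro j hj
    exact ⟨hs0 ▸ hs (Nat.zero_le j), hsN ▸ hs hj⟩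
  have hclose : ∀ j : ℕ, j < N n → nm (H192.ro (p n (j : ZMod (N n))) - x) ≤ R' + 3 →
      dist (bc Φ (s j)) b < r2 := by
    intro j hj h
    have h1 := (ro_rnd hδ b (p n (j : ZMod (N n)))).2
    have h2 := hvert j hj
    have h3 := dist_triangle_left (bc Φ (s j)) b ((d : ℂ) * pt (p n (j : ZMod (N n))))
    have h4 : ((nm (H192.ro (p n (j : ZMod (N n))) - x) : ℤ) : ℝ) ≤ (R' : ℝ) + 3 := by
      exact_mod_cast h
    rw [← hx] at h1
    nlinarith
  have hfar' : ∀ j : ℕ, j < N n → dist (bc Φ (s j)) b < r / 16 →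
      nm (H192.ro (p n (j : ZMod (N n))) - x) < R := by
    intro j hj h
    have h2 := hvert j hj
    have h3 := dist_triangle ((d : ℂ) * pt (p n (j : ZMod (N n)))) (bc Φ (s j)) b
    have h1 := hmul (ro_rnd hδ b (p n (j : ZMod (N n)))).1
    apply key
    rw [← hx] at h1
    linarith
  have hw : ∀ i, k n ≤ i → i < N n → nm (H192.ro (p n i) - x) ≤ R' + 3 → ∀ l, i ≤ l → l < N n →
      nm (H192.ro (p n l) - x) < R := by
    intro j hj1 hj2 hj3 j' hj4 hj5
    refine hfar' j' hj5 ?_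
    obtain ⟨a1, a2⟩ := hs01 j hj2.le
    exact hnear2 (s j) (hsk ▸ hs hj1) a2 (hclose j hj2 hj3) _ (hs hj4) (hs01 j' hj5.le).2
  have hf : ∀ i < k n, nm (H192.ro (p n i) - x) ≤ R' + 3 → ∀ l, l ≤ i →
      nm (H192.ro (p n l) - x) < R := by
    intro j hj1 hj3 j' hj4
    refine hfar' j' (by omega) ?_
    obtain ⟨a1, a2⟩ := hs01 j (by omega)
    exact hnear1 (s j) a1 (hsk ▸ hs hj1.le) (hclose j (by omega) hj3) _ (hs01 j' (by omega)).1
      (hs hj4)
  have ha : nm (H192.ro (p n 0) - x) + 1 ≤ ρ := by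
    have h2 := hvert 0 (by omega)
    rw [hs0, Nat.cast_zero] at h2
    have h1 := hmul (ro_rnd hδ b (p n 0)).1
    apply key'
    push_cast
    rw [← hx] at h1
    nlinarith
  have hbk : R + 1 < nm (H192.ro (p n (k n : ZMod (N n))) - x) := by
    have h1 := (ro_rnd hδ b (p n (k n : ZMod (N n)))).2
    have h2 := hvert (k n) hk
    rw [hsk] at h2
    have h2' : dist ((d : ℂ) * pt (p n (k n : ZMod (N n)))) (bq Φ) < r' / 8 := h2
    have h3 := dist_triangle_left b (bq Φ) ((d : ℂ) * pt (p n (k n : ZMod (N n))))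
    apply key
    push_cast
    rw [← hx] at h1
    nlinarith
  -- the event
  refine (mean_mono' hq0 fun A hAS => ?_).trans ((hbound (N n) (p n) (S n) (k n) hp hS
    h0k hk x ρ R' R hρ0 hρR hRR' hw hf ha hbk).trans ?_)
  · split_ifs with g1 g2 g2
    · exact le_rfl
    · exfalso
      apply g2
      obtain ⟨t0, t1, c1, c2, c3, c4⟩ := g1
      refine ⟨t0, t1, c1, c2, ?_, ?_⟩
      · have h1 := (hd_rnd hδ b (run (p n) (k n) A t0)).2
        apply key
        rw [← hx] at h1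
        nlinarith
      · have h1 := hmul (hd_rnd hδ b (run (p n) (k n) A t1)).1
        apply key'
        rw [← hx] at h1
        linarith
    · exact zero_le_one
    · exact le_rfl
  · refine le_trans (mul_le_mul_of_nonneg_left (Real.rpow_le_rpow ?_ ?_ hα.le) hC.le) hr'2
    · apply div_nonneg
      · exact_mod_cast (by omega : (0 : ℤ) ≤ ρ)
      · exact_mod_cast (by omega : (0 : ℤ) ≤ R')
    · have h1 : (0 : ℝ) < (R' : ℝ) := by exact_mod_cast (by omega : (0 : ℤ) < R')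
      rw [div_le_div_iff₀ h1 hr2]
      have h2 : d * ((ρ : ℝ) * r2) ≤ d * (64 * r' * (R' : ℝ)) := by
        nlinarith
      exact le_of_mul_le_mul_left h2 hδ

/-- **No return to `a`**, `0 < q < 1`. -/
theorem staW {q : ℝ} (hq1 : Kit (√q)) : I_staW (wq q) := by
  classical
  have hq0 : 0 < q := hq1.q_pos
  intro Φ δ N k p S h r0 hr0 e' he'
  obtain ⟨e, he, heq⟩ := ENNReal.lt_iff_exists_nnreal_btwn.1 he'
  have he0 : (0 : ℝ) < e := by exact_mod_cast he
  have hpi := Real.pi_pos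
  have hab : 0 < dist (bc Φ 0) (bq Φ) := by
    rw [dist_pos]
    exact H174.bc_ne le_rfl (by linarith) hpi.ne
  set r : ℝ := min (r0 / 2) (dist (bc Φ 0) (bq Φ)) with hr
  have hr1 : 0 < r := lt_min (by linarith) hab
  have hr2 : r ≤ r0 / 2 := min_le_left _ _
  obtain ⟨r', hr', hm⟩ := retA_mean hq1 h hr1 (min_le_right _ _) he0
  refine ⟨r' / 2, by linarith, ?_⟩
  filter_upwards [hm, h.2.1.eventually (gt_mem_nhds (show (0 : ℝ) < min r r' / 16 from
    div_pos (lt_min hr1 hr') (by norm_num)))] with n hn hδn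
  obtain ⟨h1, h2, h3, h4, h5⟩ := h.1 n
  have e1 : δ n < r / 16 := lt_of_lt_of_le hδn (by linarith [min_le_left r r'])
  have e2 : δ n < r' / 16 := lt_of_lt_of_le hδn (by linarith [min_le_right r r'])
  refine le_trans (lwt_le hq0 _ (fun A => A ⊆ edges (S n) ∧ ∃ t0 t1 : ℕ, t0 ≤ t1 ∧
    t1 < len (p n) (k n) A ∧ r < dist (mid (δ n) (run (p n) (k n) A t0)) (bc Φ 0) ∧
    dist (mid (δ n) (run (p n) (k n) A t1)) (bc Φ 0) < r') ?_ (e := e) ?_) ?_
  · rintro A ⟨s, t, hst, hs, ht⟩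
    have hAS : A.1 ⊆ edges (S n) := Finset.mem_powerset.1 A.2
    refine ⟨hAS, ?_⟩
    have hnear : Near (fun j => mid (δ n) (run (p n) (k n) A.1 j)) (len (p n) (k n) A.1)
        (Xc (p n) (k n) (δ n) A.1) (δ n + 2 * δ n) := by
      have h6 := near_crv h1.le h4 h5 h2 h3 hAS
      refine h6.reparam (OrderIso.refl _) ?_
      have h7 : reparam (crv (p n) (k n) (δ n) A.1) (OrderIso.refl unitInterval) =
          crv (p n) (k n) (δ n) A.1 := by
        ext t
        rfl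
      rw [h7]
      exact dist_crv_Xc h4 h5 h2 h3 hAS h1.le
    obtain ⟨u, hu, hL, hd⟩ := hnear
    refine ⟨u s, u t, hu hst, hL t, ?_, ?_⟩
    · have c1 := hd s
      have c2 := dist_triangle (Xc (p n) (k n) (δ n) A.1 s)
        (mid (δ n) (run (p n) (k n) A.1 (u s))) (bc Φ 0)
      linarith
    · have c1 := hd t
      have c2 := dist_triangle_left (mid (δ n) (run (p n) (k n) A.1 (u t))) (bc Φ 0)
        (Xc (p n) (k n) (δ n) A.1 t)
      linarith
  · refine le_trans (mean_mono' hq0 fun A hA => ?_) hn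
    split_ifs with g1 g2 g2
    · exact le_rfl
    · exact absurd g1.2 g2
    · exact zero_le_one
    · exact le_rfl
  · rw [ENNReal.ofReal_coe_nnreal]
    exact heq.le

end Vale.Agent.P167.N.H469
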